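import Crest.Agent.Lib.Tet.Strip

/-!
The triangles of a radial sweep.
-/

set_option autoImplicit false

open MeasureTheory Set
open scoped ENNReal Topology

noncomputable section

namespace Crest.Agent.Lib.Tet

/-- The apex of a sweep triangle. -/
def swP (D p₀ A : E3) (K : ℝ) : E3 := proj D (p₀ - K • A)

/-- The other vertices of a sweep triangle. -/
def swQ (D p₀ A B : E3) (K X₁ σ : ℝ) : E3 := proj D (p₀ + X₁ • A + (σ * (X₁ + K)) • B)

lemma swQ_sub_swP (D p₀ A B : E3) (K X₁ σ : ℝ) :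
    swQ D p₀ A B K X₁ σ - swP D p₀ A K =
      (X₁ + K) • proj D A + (σ * (X₁ + K)) • proj D B := by
  rw [swQ, swP, ← proj_sub, ← proj_smul, ← proj_smul, ← proj_add]
  congr 1
  module

/-- Membership in a sweep triangle. -/
lemma sw_mem (D p₀ A B : E3) {K X₁ σp σm U V : ℝ} (hH : 0 < X₁ + K) (hσ : σm < σp) (hU : U ≤ X₁)
    (hU0 : 0 ≤ U + K) (hV1 : σm * (U + K) ≤ V) (hV2 : V ≤ σp * (U + K)) :
    proj D (p₀ + U • A + V • B) ∈
      convexHull ℝ ({swP D p₀ A K, swQ D p₀ A B K X₁ σp, swQ D p₀ A B K X₁ σm} : Set E3) := by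
  set H := X₁ + K with hHdef
  set h := U + K with hh
  have hd : 0 < σp - σm := sub_pos.2 hσ
  set w₂ := (V - σm * h) / (H * (σp - σm)) with hw₂
  set w₃ := (σp * h - V) / (H * (σp - σm)) with hw₃
  set w₁ := (X₁ - U) / H with hw₁
  have h₁ : 0 ≤ w₁ := div_nonneg (by linarith) hH.le
  have h₂ : 0 ≤ w₂ := div_nonneg (by linarith) (by positivity)
  have h₃ : 0 ≤ w₃ := div_nonneg (by linarith) (by positivity)
  have hdne : σp - σm ≠ 0 := hd.ne'
  have hHne : H ≠ 0 := hH.ne'
  have hsum : w₁ + w₂ + w₃ = 1 := by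
    rw [hw₁, hw₂, hw₃]
    field_simp
    rw [hHdef, hh]; ring
  have hU' : w₂ + w₃ = h / H := by
    rw [hw₂, hw₃]
    field_simp
    ring
  have hV' : (w₂ * σp + w₃ * σm) * H = V := by
    rw [hw₂, hw₃]
    field_simp
    ring
  have hmem := mem_triangle (swP D p₀ A K) (swQ D p₀ A B K X₁ σp) (swQ D p₀ A B K X₁ σm)
    h₁ h₂ h₃ hsum
  have hproj : proj D (p₀ + U • A + V • B) = w₁ • swP D p₀ A K + w₂ • swQ D p₀ A B K X₁ σp
      + w₃ • swQ D p₀ A B K X₁ σm := by
    rw [swP, swQ, swQ, ← proj_smul, ← proj_smul, ← proj_smul, ← proj_add, ← proj_add]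
    congr 1
    have e8 : -w₁ * K + (w₂ + w₃) * X₁ = U := by
      rw [hU', hw₁]
      field_simp
      rw [hHdef, hh]
      ring
    have e3 : p₀ + U • A + V • B = (w₁ + w₂ + w₃) • p₀ + (-w₁ * K + (w₂ + w₃) * X₁) • A
        + ((w₂ * σp + w₃ * σm) * H) • B := by
      rw [hsum, e8, hV', one_smul]
    rw [e3]
    module
  rw [hproj]
  exact hmem

/-- Every point of a sweep triangle is of the planar form. -/
lemma sw_points (D p₀ A B : E3) {K X₁ σp σm : ℝ} (hH : 0 ≤ X₁ + K) (hσ : σm ≤ σp) {y : E3}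
    (hy : y ∈ convexHull ℝ ({swP D p₀ A K, swQ D p₀ A B K X₁ σp, swQ D p₀ A B K X₁ σm} : Set E3)) :
    ∃ U V : ℝ, 0 ≤ U + K ∧ U ≤ X₁ ∧ σm * (U + K) ≤ V ∧ V ≤ σp * (U + K) ∧
      y = proj D (p₀ + U • A + V • B) := by
  rw [convexHull_triangle_eq] at hy
  obtain ⟨s, ⟨h0, h1, h01⟩, rfl⟩ := hy
  set H := X₁ + K with hHdef
  have hs : 0 ≤ s 0 + s 1 := add_nonneg h0 h1
  refine ⟨(s 0 + s 1) * H - K, (s 0 * σp + s 1 * σm) * H, ?_, ?_, ?_, ?_, ?_⟩
  · have : (s 0 + s 1) * H - K + K = (s 0 + s 1) * H := by ring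
    rw [this]; positivity
  · have : (s 0 + s 1) * H ≤ 1 * H := mul_le_mul_of_nonneg_right h01 hH
    rw [hHdef] at this ⊢
    linarith
  · have : (s 0 + s 1) * H - K + K = (s 0 + s 1) * H := by ring
    rw [this]
    have h2 : s 0 * σm ≤ s 0 * σp := mul_le_mul_of_nonneg_left hσ h0
    have h3 : (s 0 * σm + s 1 * σm) * H ≤ (s 0 * σp + s 1 * σm) * H :=
      mul_le_mul_of_nonneg_right (by linarith) hH
    linarith
  · have : (s 0 + s 1) * H - K + K = (s 0 + s 1) * H := by ring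
    rw [this]
    have h2 : s 1 * σm ≤ s 1 * σp := mul_le_mul_of_nonneg_left hσ h1
    have h3 : (s 0 * σp + s 1 * σm) * H ≤ (s 0 * σp + s 1 * σp) * H :=
      mul_le_mul_of_nonneg_right (by linarith) hH
    linarith
  · simp only [swQ_sub_swP]
    rw [swP, ← hHdef, proj_add, proj_add, proj_sub, proj_smul, proj_smul, proj_smul]
    module

lemma sw_gram (D p₀ A B : E3) (K X₁ σp σm : ℝ) :
    gram (swQ D p₀ A B K X₁ σp - swP D p₀ A K) (swQ D p₀ A B K X₁ σm - swP D p₀ A K) =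
      ((X₁ + K) ^ 2 * (σp - σm)) ^ 2 * gram (proj D A) (proj D B) := by
  rw [swQ_sub_swP, swQ_sub_swP, gram_comb]
  ring

lemma sw_gram_pos (D p₀ A B : E3) {K X₁ σp σm : ℝ} (hH : 0 < X₁ + K) (hσ : σm < σp)
    (hG : 0 < gram (proj D A) (proj D B)) :
    0 < gram (swQ D p₀ A B K X₁ σp - swP D p₀ A K) (swQ D p₀ A B K X₁ σm - swP D p₀ A K) := by
  rw [sw_gram]
  have := sub_pos.2 hσ
  positivity

/-- Area of a sweep triangle. -/
lemma sw_area (D p₀ A B : E3) {K X₁ σp σm : ℝ} (hH : 0 < X₁ + K) (hσ : σm < σp)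
    (hG : 0 < gram (proj D A) (proj D B)) :
    μHE[2] (convexHull ℝ ({swP D p₀ A K, swQ D p₀ A B K X₁ σp, swQ D p₀ A B K X₁ σm} : Set E3)) =
      ENNReal.ofReal ((X₁ + K) ^ 2 * (σp - σm) * Real.sqrt (gram (proj D A) (proj D B)) / 2) := by
  have hd := sub_pos.2 hσ
  rw [area_triangle _ _ _ (sw_gram_pos D p₀ A B hH hσ hG), sw_gram, Real.sqrt_mul (by positivity),
    Real.sqrt_sq (by positivity)]

/-- A nondegenerate Gram determinant gives affine independence. -/
lemma affineIndependent_of_gram {p q r : E3} (h : 0 < gram (q - p) (r - p)) :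
    AffineIndependent ℝ ![p, q, r] := by
  rw [affineIndependent_iff_not_collinear_set]
  intro hc
  rw [collinear_iff_of_mem (p₀ := p) (by simp)] at hc
  obtain ⟨v, hv⟩ := hc
  obtain ⟨r₁, h₁⟩ := hv q (by simp)
  obtain ⟨r₂, h₂⟩ := hv r (by simp)
  have e₁ : q - p = r₁ • v := by
    rw [h₁]; simp
  have e₂ : r - p = r₂ • v := by
    rw [h₂]; simp
  rw [e₁, e₂, gram_smul_smul] at h
  have : gram v v = 0 := by
    simp [gram, real_inner_self_eq_norm_sq]
    ring
  rw [this] at h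
  simp at h

/-- The Gram determinant of independent vectors is positive. -/
lemma gram_pos_of_independent {a b : E3} (hab : LinearIndependent ℝ ![a, b]) : 0 < gram a b := by
  rcases (gram_nonneg a b).lt_or_eq with h | h
  · exact h
  exfalso
  rw [LinearIndependent.pair_iff] at hab
  by_cases ha : a = 0
  · have := hab 1 0 (by simp [ha])
    simp at this
  · have hn : ‖a‖ ^ 2 ≠ 0 := by
      have := norm_pos_iff.2 ha
      positivity
    have h0 : ‖b - (inner ℝ a b / ‖a‖ ^ 2) • a‖ ^ 2 = 0 := by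
      rw [@norm_sub_sq_real, norm_smul, inner_smul_right, Real.norm_eq_abs, mul_pow, sq_abs]
      have h' : gram a b = 0 := h.symm
      unfold gram at h'
      have hc : (inner ℝ a b : ℝ) ^ 2 = ‖a‖ ^ 2 * ‖b‖ ^ 2 := by linarith
      have hc' : (inner ℝ b a : ℝ) ^ 2 = ‖a‖ ^ 2 * ‖b‖ ^ 2 := by
        rw [real_inner_comm]; exact hc
      rw [real_inner_comm]
      field_simp
      rw [hc']
      ring
    have h1 : b - (inner ℝ a b / ‖a‖ ^ 2) • a = 0 := by
      have := pow_eq_zero_iff (n := 2) (by norm_num) |>.1 h0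
      exact norm_eq_zero.1 this
    have := hab (-(inner ℝ a b / ‖a‖ ^ 2)) 1 (by rw [← h1]; module)
    simp at this

/-! ### Spanning of the plane -/

/-- Dual vectors of a planar pair. -/
def dualA (a b : E3) : E3 := (1 / gram a b) • (‖b‖ ^ 2 • a - (inner ℝ a b : ℝ) • b)
/-- Dual vectors of a planar pair. -/
def dualB (a b : E3) : E3 := (1 / gram a b) • (‖a‖ ^ 2 • b - (inner ℝ a b : ℝ) • a)

lemma dualA_a {a b : E3} (hg : 0 < gram a b) : inner ℝ (dualA a b) a = (1 : ℝ) := by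
  have hne := hg.ne'
  simp only [dualA, inner_smul_left, inner_sub_left, RCLike.conj_to_real,
    real_inner_self_eq_norm_sq]
  rw [real_inner_comm a b]
  field_simp
  rw [gram]
  ring

lemma dualA_b {a b : E3} (hg : 0 < gram a b) : inner ℝ (dualA a b) b = (0 : ℝ) := by
  have hne := hg.ne'
  simp only [dualA, inner_smul_left, inner_sub_left, RCLike.conj_to_real,
    real_inner_self_eq_norm_sq]
  rw [mul_comm (‖b‖ ^ 2)]
  simp

lemma dualB_a {a b : E3} (hg : 0 < gram a b) : inner ℝ (dualB a b) a = (0 : ℝ) := by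
  have hne := hg.ne'
  simp only [dualB, inner_smul_left, inner_sub_left, RCLike.conj_to_real,
    real_inner_self_eq_norm_sq]
  rw [real_inner_comm a b]
  simp [mul_comm]

lemma dualB_b {a b : E3} (hg : 0 < gram a b) : inner ℝ (dualB a b) b = (1 : ℝ) := by
  have hne := hg.ne'
  simp only [dualB, inner_smul_left, inner_sub_left, RCLike.conj_to_real,
    real_inner_self_eq_norm_sq]
  field_simp
  rw [gram]

/-- A vector orthogonal to three independent vectors vanishes. -/
lemma eq_zero_of_perp_three {a b e z : E3} (hdet : det3 a b e ≠ 0) (ha : inner ℝ z a = (0 : ℝ))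
    (hb : inner ℝ z b = (0 : ℝ)) (he : inner ℝ z e = (0 : ℝ)) : z = 0 := by
  rw [inner_coords] at ha hb he
  simp only [det3] at hdet
  apply ext3
  · apply (mul_eq_zero.1 _).resolve_right hdet
    linear_combination (b 1 * e 2 - b 2 * e 1) * ha - (a 1 * e 2 - a 2 * e 1) * hb +
      (a 1 * b 2 - a 2 * b 1) * he
  · apply (mul_eq_zero.1 _).resolve_right hdet
    linear_combination -(b 0 * e 2 - b 2 * e 0) * ha + (a 0 * e 2 - a 2 * e 0) * hb -
      (a 0 * b 2 - a 2 * b 0) * he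
  · apply (mul_eq_zero.1 _).resolve_right hdet
    linear_combination (b 0 * e 1 - b 1 * e 0) * ha - (a 0 * e 1 - a 1 * e 0) * hb +
      (a 0 * b 1 - a 1 * b 0) * he

/-- The determinant of an orthogonal triple. -/
lemma det3_sq_of_perp {a b e : E3} (he : ‖e‖ = 1) (ha : inner ℝ a e = (0 : ℝ))
    (hb : inner ℝ b e = (0 : ℝ)) : det3 a b e ^ 2 = gram a b := by
  rw [← gram_proj_unit he]
  have hpa : proj e a = a := by simp [proj, ha]
  have hpb : proj e b = b := by simp [proj, hb]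
  rw [hpa, hpb]

/-- A vector orthogonal to `e` is spanned by `a, b`. -/
lemma span_of_perp {a b e y : E3} (he : ‖e‖ = 1) (ha : inner ℝ a e = (0 : ℝ))
    (hb : inner ℝ b e = (0 : ℝ)) (hy : inner ℝ y e = (0 : ℝ)) (hg : 0 < gram a b) :
    y = (inner ℝ (dualA a b) y : ℝ) • a + (inner ℝ (dualB a b) y : ℝ) • b := by
  have hdet : det3 a b e ≠ 0 := by
    intro h
    have := det3_sq_of_perp he ha hb
    rw [h] at this
    simp at this
    exact hg.ne this
  have hne := hg.ne'
  have hga : gram a b = ‖a‖ ^ 2 * ‖b‖ ^ 2 - (inner ℝ a b : ℝ) ^ 2 := rfl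
  have hz := eq_zero_of_perp_three (z := y - ((inner ℝ (dualA a b) y : ℝ) • a +
    (inner ℝ (dualB a b) y : ℝ) • b)) hdet ?_ ?_ ?_
  · exact sub_eq_zero.1 hz
  · simp only [dualA, dualB, inner_sub_left, inner_add_left, inner_smul_left, RCLike.conj_to_real,
      real_inner_self_eq_norm_sq]
    simp only [real_inner_comm a b, real_inner_comm a y, real_inner_comm b y]
    field_simp
    rw [hga]
    ring
  · simp only [dualA, dualB, inner_sub_left, inner_add_left, inner_smul_left, RCLike.conj_to_real,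
      real_inner_self_eq_norm_sq]
    simp only [real_inner_comm a b, real_inner_comm a y, real_inner_comm b y]
    field_simp
    rw [hga]
    ring
  · simp only [inner_sub_left, inner_add_left, inner_smul_left, RCLike.conj_to_real, ha, hb, hy]
    ring

/-- The area factor of the sweep. -/
lemma gram_sweep {a b e w' : E3} (he : ‖e‖ = 1) (ha : inner ℝ a e = (0 : ℝ))
    (hb : inner ℝ b e = (0 : ℝ)) (hw' : inner ℝ w' e = (0 : ℝ)) (hg : 0 < gram a b) (c : ℝ) :
    gram (proj (e + w') (a + c • b)) (proj (e + w') b) = gram a b / (1 + ‖w'‖ ^ 2) := by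
  have hnorm : ‖e + w'‖ ^ 2 = 1 + ‖w'‖ ^ 2 := by
    rw [@norm_add_sq_real, he, real_inner_comm, hw']
    ring
  have hpos : (0 : ℝ) < 1 + ‖w'‖ ^ 2 := by positivity
  have hD : e + w' ≠ 0 := by
    intro h
    rw [h, norm_zero] at hnorm
    have : (0 : ℝ) ^ 2 = 0 := by norm_num
    rw [this] at hnorm
    linarith
  have h1 : gram (proj (e + w') (a + c • b)) (proj (e + w') b) =
      gram (proj (e + w') a) (proj (e + w') b) := by
    have := gram_comb (proj (e + w') a) (proj (e + w') b) 1 c 0 1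
    simp only [one_smul, zero_smul, zero_add] at this
    rw [proj_add, proj_smul, this]
    ring
  rw [h1, gram_proj hD, hnorm]
  have hy := span_of_perp he ha hb hw' hg
  set x := (inner ℝ (dualA a b) w' : ℝ) with hx
  set y := (inner ℝ (dualB a b) w' : ℝ) with hy'
  have haD : (inner ℝ a (e + w') : ℝ) = x * ‖a‖ ^ 2 + y * inner ℝ a b := by
    rw [inner_add_right, ha, zero_add]
    nth_rewrite 1 [hy]
    simp only [inner_add_right, inner_smul_right, real_inner_self_eq_norm_sq]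
  have hbD : (inner ℝ b (e + w') : ℝ) = x * inner ℝ a b + y * ‖b‖ ^ 2 := by
    rw [inner_add_right, hb, zero_add]
    nth_rewrite 1 [hy]
    simp only [inner_add_right, inner_smul_right, real_inner_self_eq_norm_sq]
    rw [real_inner_comm a b]
  have hww : ‖w'‖ ^ 2 = x ^ 2 * ‖a‖ ^ 2 + 2 * x * y * inner ℝ a b + y ^ 2 * ‖b‖ ^ 2 := by
    rw [← real_inner_self_eq_norm_sq]
    nth_rewrite 1 [hy]
    nth_rewrite 1 [hy]
    simp only [inner_add_right, inner_add_left, inner_smul_right, inner_smul_left,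
      real_inner_self_eq_norm_sq, RCLike.conj_to_real]
    rw [real_inner_comm a b]
    ring
  rw [haD, hbD]
  have hga : gram a b = ‖a‖ ^ 2 * ‖b‖ ^ 2 - (inner ℝ a b : ℝ) ^ 2 := rfl
  have hQ : ‖a‖ ^ 2 * (x * inner ℝ a b + y * ‖b‖ ^ 2) ^ 2 +
      ‖b‖ ^ 2 * (x * ‖a‖ ^ 2 + y * inner ℝ a b) ^ 2 -
      2 * inner ℝ a b * (x * ‖a‖ ^ 2 + y * inner ℝ a b) * (x * inner ℝ a b + y * ‖b‖ ^ 2) =
      gram a b * ‖w'‖ ^ 2 := by
    rw [hww, hga]
    ring
  rw [hQ]
  field_simp
  ring

end Crest.Agent.Lib.Tet
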