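import Crest.Agent.Lib.Tet.Sweep

/-!
Estimates along a radial sweep.
-/

set_option autoImplicit false

open MeasureTheory Set
open scoped ENNReal Topology

noncomputable section

namespace Crest.Agent.Lib.Tet

/-- The estimates on the direction field. -/
lemma direction_estimates {a b Aₛ Bₛ : E3} {α β M : ℝ} {w : ℝ → E3} {lam : ℝ → ℝ}
    (hw' : ∀ t ∈ Icc α β, HasDerivWithinAt w (lam t • (a + t • b)) (Icc α β) t)
    (hAa : inner ℝ Aₛ a = (1 : ℝ)) (hAb : inner ℝ Aₛ b = (0 : ℝ))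
    (hBa : inner ℝ Bₛ a = (0 : ℝ)) (hBb : inner ℝ Bₛ b = (1 : ℝ))
    (hM : ∀ t ∈ Icc α β, |lam t| ≤ M) {c τ : ℝ} (hc : c ∈ Icc α β) (hτ : τ ∈ Icc α β) :
    |(inner ℝ Aₛ (w τ) : ℝ) - inner ℝ Aₛ (w c)| ≤ M * |τ - c| ∧
      |((inner ℝ Bₛ (w τ) : ℝ) - inner ℝ Bₛ (w c)) -
        c * ((inner ℝ Aₛ (w τ) : ℝ) - inner ℝ Aₛ (w c))| ≤ M * |τ - c| ^ 2 := by
  have hder₁ : ∀ t ∈ Icc α β,
      HasDerivWithinAt (fun σ => (inner ℝ Aₛ (w σ) : ℝ)) (lam t) (Icc α β) t := by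
    intro t ht
    have h := (innerSL ℝ Aₛ).hasFDerivAt.comp_hasDerivWithinAt t (hw' t ht)
    have e : (innerSL ℝ Aₛ) (lam t • (a + t • b)) = lam t := by
      simp only [innerSL_apply_apply, inner_smul_right, inner_add_right, hAa, hAb]
      ring
    rw [e] at h
    exact h
  have hder₂ : ∀ t ∈ Icc α β,
      HasDerivWithinAt (fun σ => (inner ℝ Bₛ (w σ) : ℝ)) (lam t * t) (Icc α β) t := by
    intro t ht
    have h := (innerSL ℝ Bₛ).hasFDerivAt.comp_hasDerivWithinAt t (hw' t ht)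
    have e : (innerSL ℝ Bₛ) (lam t • (a + t • b)) = lam t * t := by
      simp only [innerSL_apply_apply, inner_smul_right, inner_add_right, hBa, hBb]
      ring
    rw [e] at h
    exact h
  constructor
  · have := Convex.norm_image_sub_le_of_norm_hasDerivWithin_le (f := fun σ => (inner ℝ Aₛ (w σ) : ℝ))
      (f' := lam) (s := Icc α β) (C := M) hder₁ (fun t ht => by simpa using hM t ht)
      (convex_Icc α β) hc hτ
    simpa using this
  · set F : ℝ → ℝ := fun σ => (inner ℝ Bₛ (w σ) : ℝ) - c * inner ℝ Aₛ (w σ) with hF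
    have hsub : uIcc c τ ⊆ Icc α β := (ordConnected_Icc).uIcc_subset hc hτ
    have hderF : ∀ t ∈ uIcc c τ, HasDerivWithinAt F (lam t * (t - c)) (uIcc c τ) t := by
      intro t ht
      have h₁ := (hder₁ t (hsub ht)).mono hsub
      have h₂ := (hder₂ t (hsub ht)).mono hsub
      have := h₂.sub (h₁.const_mul c)
      have e : lam t * t - c * lam t = lam t * (t - c) := by ring
      rw [e] at this
      exact this
    have hbound : ∀ t ∈ uIcc c τ, ‖lam t * (t - c)‖ ≤ M * |τ - c| := by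
      intro t ht
      have h1 := hM t (hsub ht)
      have h2 : |t - c| ≤ |τ - c| := by
        exact abs_sub_left_of_mem_uIcc ht
      rw [Real.norm_eq_abs, abs_mul]
      exact mul_le_mul h1 h2 (abs_nonneg _) ((abs_nonneg _).trans h1)
    have := Convex.norm_image_sub_le_of_norm_hasDerivWithin_le hderF hbound
      (convex_uIcc c τ) left_mem_uIcc right_mem_uIcc
    rw [Real.norm_eq_abs, Real.norm_eq_abs] at this
    have e : F τ - F c = ((inner ℝ Bₛ (w τ) : ℝ) - inner ℝ Bₛ (w c)) -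
        c * ((inner ℝ Aₛ (w τ) : ℝ) - inner ℝ Aₛ (w c)) := by
      simp only [hF]; ring
    rw [e] at this
    rw [sq, ← mul_assoc]
    exact this

/-- The planar inequalities of a sweep point. -/
lemma sweep_ineq {ρ u s A' F L M δ Δ ϑ K up um : ℝ} (hρ : 0 ≤ ρ) (hL : 0 ≤ L) (hMpos : 0 ≤ M)
    (hs : |s| ≤ L) (hA' : |A'| ≤ M * |u|) (hF : |F| ≤ M * |u| ^ 2) (hu1 : um ≤ u) (hu2 : u ≤ up)
    (hum : um ≤ 0) (hup : 0 ≤ up) (hΔ : up - um = Δ) (hΔδ : Δ ≤ δ) (hϑ : 0 < ϑ)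
    (hK : K = L * M * δ * (1 + 1 / ϑ)) :
    0 ≤ ρ + s * A' + K ∧ (um - ϑ * Δ) * (ρ + s * A' + K) ≤ ρ * u + s * F ∧
      ρ * u + s * F ≤ (up + ϑ * Δ) * (ρ + s * A' + K) ∧ s * A' ≤ L * M * δ := by
  have hΔ0 : 0 ≤ Δ := by linarith
  have hδ0 : 0 ≤ δ := by linarith
  have hau : |u| ≤ Δ := by
    rw [abs_le]; constructor <;> linarith
  have hLM : 0 ≤ L * M := mul_nonneg hL hMpos
  -- size of the perturbations
  have h1 : |s * A'| ≤ L * M * δ := by
    rw [abs_mul]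
    have : |A'| ≤ M * δ := hA'.trans (mul_le_mul_of_nonneg_left (hau.trans hΔδ) hMpos)
    calc |s| * |A'| ≤ L * (M * δ) := mul_le_mul hs this (abs_nonneg _) hL
      _ = L * M * δ := by ring
  have h2 : |s * F| ≤ L * M * δ * Δ := by
    rw [abs_mul]
    have h3 : |u| ^ 2 ≤ δ * Δ := by
      rw [sq]
      exact mul_le_mul (hau.trans hΔδ) hau (abs_nonneg _) hδ0
    have : |F| ≤ M * (δ * Δ) := hF.trans (mul_le_mul_of_nonneg_left h3 hMpos)
    calc |s| * |F| ≤ L * (M * (δ * Δ)) := mul_le_mul hs this (abs_nonneg _) hL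
      _ = L * M * δ * Δ := by ring
  have hA1 := abs_le.1 h1
  have hF1 := abs_le.1 h2
  set Z := s * A' + K with hZ
  have hKeq : K = L * M * δ + L * M * δ / ϑ := by
    rw [hK]; field_simp
  have hKdiv : ϑ * (L * M * δ / ϑ) = L * M * δ := by
    field_simp
  have hLMδ : 0 ≤ L * M * δ := mul_nonneg hLM hδ0
  have hZ0 : L * M * δ / ϑ ≤ Z := by
    rw [hZ, hKeq]; linarith [hA1.1]
  have hdiv0 : 0 ≤ L * M * δ / ϑ := div_nonneg hLMδ hϑ.le
  have hZpos : 0 ≤ Z := hdiv0.trans hZ0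
  have hϑZ : L * M * δ ≤ ϑ * Z := by
    calc L * M * δ = ϑ * (L * M * δ / ϑ) := hKdiv.symm
      _ ≤ ϑ * Z := mul_le_mul_of_nonneg_left hZ0 hϑ.le
  have hΔZ : L * M * δ * Δ ≤ ϑ * Δ * Z := by
    have := mul_le_mul_of_nonneg_right hϑZ hΔ0
    linarith [this, mul_comm (ϑ * Z) Δ, mul_assoc ϑ Z Δ, mul_assoc ϑ Δ Z, mul_comm Z Δ]
  have hρZ : ρ + s * A' + K = ρ + Z := by rw [hZ]; ring
  rw [hρZ]
  refine ⟨by linarith, ?_, ?_, by linarith [hA1.2]⟩
  · -- lower edge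
    have e1 : (um - ϑ * Δ) * (ρ + Z) = um * ρ + um * Z - ϑ * Δ * ρ - ϑ * Δ * Z := by ring
    have e2 : um * Z ≤ 0 := mul_nonpos_of_nonpos_of_nonneg hum hZpos
    have e3 : 0 ≤ ϑ * Δ * ρ := by positivity
    have e4 : ρ * um ≤ ρ * u := mul_le_mul_of_nonneg_left hu1 hρ
    rw [e1]
    linarith [hF1.1, mul_comm um ρ]
  · -- upper edge
    have e1 : (up + ϑ * Δ) * (ρ + Z) = up * ρ + up * Z + ϑ * Δ * ρ + ϑ * Δ * Z := by ring
    have e2 : 0 ≤ up * Z := mul_nonneg hup hZpos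
    have e3 : 0 ≤ ϑ * Δ * ρ := by positivity
    have e4 : ρ * u ≤ ρ * up := mul_le_mul_of_nonneg_left hu2 hρ
    rw [e1]
    linarith [hF1.2, mul_comm up ρ]

/-- A point of the sweep over `[lo, hi]` projects into the sweep triangle. -/
lemma local_mem {e a b p₀ wc wτ : E3} {L M δ ϑ K ω c τ lo hi ρ s A' B' Rc Rτ : ℝ}
    (hL : 0 ≤ L) (hM : 0 ≤ M) (hϑ : 0 < ϑ) (hK : K = L * M * δ * (1 + 1 / ϑ))
    (hdiff : wτ = wc + A' • a + B' • b) (hA' : |A'| ≤ M * |τ - c|)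
    (hF : |B' - c * A'| ≤ M * |τ - c| ^ 2) (hD : e + wc ≠ 0)
    (hclo : lo ≤ c) (hchi : c ≤ hi) (hτlo : lo ≤ τ) (hτhi : τ ≤ hi) (hlohi : lo < hi)
    (hΔ : hi - lo ≤ δ) (hρ0 : 0 ≤ ρ) (hρ : ρ ≤ Rτ) (hs : |s| ≤ L) (hR : Rτ ≤ Rc + ω)
    (hH : 0 < (Rc + ω + L * M * δ) + K) :
    proj (e + wc) (p₀ + ρ • (a + τ • b) + s • (e + wτ)) ∈
      convexHull ℝ ({swP (e + wc) p₀ (a + c • b) K,
        swQ (e + wc) p₀ (a + c • b) b K (Rc + ω + L * M * δ) ((hi - c) + ϑ * (hi - lo)),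
        swQ (e + wc) p₀ (a + c • b) b K (Rc + ω + L * M * δ) ((lo - c) - ϑ * (hi - lo))} : Set E3) := by
  obtain ⟨h1, h2, h3, h4⟩ := sweep_ineq (ρ := ρ) (u := τ - c) (s := s) (A' := A') (F := B' - c * A')
    (L := L) (M := M) (δ := δ) (Δ := hi - lo) (ϑ := ϑ) (K := K) (up := hi - c) (um := lo - c)
    hρ0 hL hM hs hA' hF (by linarith) (by linarith) (by linarith) (by linarith) (by ring) hΔ hϑ hK
  have hmem := sw_mem (e + wc) p₀ (a + c • b) b (K := K) (X₁ := Rc + ω + L * M * δ)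
    (σp := (hi - c) + ϑ * (hi - lo)) (σm := (lo - c) - ϑ * (hi - lo))
    (U := ρ + s * A') (V := ρ * (τ - c) + s * (B' - c * A')) hH
    (by have : 0 < ϑ * (hi - lo) := mul_pos hϑ (by linarith)
        linarith)
    (by linarith) h1 h2 h3
  have e1 : p₀ + ρ • (a + τ • b) + s • (e + wτ) =
      (p₀ + (ρ + s * A') • (a + c • b) + (ρ * (τ - c) + s * (B' - c * A')) • b) + s • (e + wc) := by
    rw [hdiff]
    module
  rw [e1, proj_add, proj_smul, proj_self hD, smul_zero, add_zero]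
  exact hmem

/-- The sector triangle lies in the projection of the sweep. -/
lemma local_sector {e a b p₀ : E3} {w : ℝ → E3} {R : ℝ → ℝ} {L r c lo hi : ℝ} (hL : 0 ≤ L)
    (hlo : lo ≤ c) (hhi : c ≤ hi) (hr : 0 ≤ r) (hRr : ∀ τ ∈ Icc lo hi, r ≤ R τ) (D : E3) :
    convexHull ℝ ({swP D p₀ (a + c • b) 0, swQ D p₀ (a + c • b) b 0 r (hi - c),
        swQ D p₀ (a + c • b) b 0 r (lo - c)} : Set E3) ⊆
      (fun y => y - (inner ℝ y D / ‖D‖ ^ 2) • D) ''
        {x : E3 | ∃ τ ∈ Icc lo hi, ∃ ρ ∈ Icc 0 (R τ), ∃ s : ℝ, |s| ≤ L ∧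
          x = p₀ + ρ • (a + τ • b) + s • (e + w τ)} := by
  intro y hy
  obtain ⟨U, V, hU0, hU1, hV1, hV2, rfl⟩ := sw_points D p₀ (a + c • b) b (K := 0) (X₁ := r)
    (σp := hi - c) (σm := lo - c) (by linarith) (by linarith) hy
  rw [add_zero] at hU0 hV1 hV2
  have hcI : c ∈ Icc lo hi := ⟨hlo, hhi⟩
  rcases hU0.lt_or_eq with hU | hU
  · -- a genuine point of the sector
    set u := V / U with hu
    have hV : U * u = V := by rw [hu]; field_simp
    have hu1 : lo - c ≤ u := by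
      rw [hu, le_div_iff₀ hU]; linarith
    have hu2 : u ≤ hi - c := by
      rw [hu, div_le_iff₀ hU]; linarith
    have hτ : c + u ∈ Icc lo hi := ⟨by linarith, by linarith⟩
    refine ⟨p₀ + U • (a + (c + u) • b) + (0 : ℝ) • (e + w (c + u)),
      ⟨c + u, hτ, U, ⟨hU0, hU1.trans (hRr _ hτ)⟩, 0, by simpa using hL, rfl⟩, ?_⟩
    show proj D _ = _
    congr 1
    rw [← hV]
    module
  · -- the apex
    have hV0 : V = 0 := by
      rw [← hU] at hV1 hV2
      simp only [mul_zero] at hV1 hV2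
      exact le_antisymm hV2 hV1
    refine ⟨p₀ + (0 : ℝ) • (a + c • b) + (0 : ℝ) • (e + w c),
      ⟨c, hcI, 0, ⟨le_rfl, hr.trans (hRr c hcI)⟩, 0, by simpa using hL, rfl⟩, ?_⟩
    show proj D _ = _
    congr 1
    rw [← hU, hV0]
    module

/-- Partitions cover the interval. -/
lemma partition_cover : ∀ (N : ℕ) (t : Fin (N + 2) → ℝ) (_ : Monotone t) (τ : ℝ) (_ : t 0 ≤ τ)
    (_ : τ ≤ t (Fin.last (N + 1))), ∃ i : Fin (N + 1), t i.castSucc ≤ τ ∧ τ ≤ t i.succ := by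
  intro N
  induction N with
  | zero =>
    intro t _ τ h0 h1
    exact ⟨0, h0, h1⟩
  | succ n ih =>
    intro t hm τ h0 h1
    by_cases hτ : τ ≤ t (Fin.last (n + 1)).castSucc
    · obtain ⟨i, hi1, hi2⟩ := ih (fun j => t j.castSucc)
        (fun x y hxy => hm (Fin.castSucc_le_castSucc_iff.2 hxy)) τ h0 hτ
      exact ⟨i.castSucc, hi1, hi2⟩
    · exact ⟨Fin.last (n + 1), (not_le.1 hτ).le, h1⟩

/-- Telescoping over a partition. -/
lemma fin_telescope : ∀ (N : ℕ) (t : Fin (N + 1) → ℝ),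
    ∑ i : Fin N, (t i.succ - t i.castSucc) = t (Fin.last N) - t 0 := by
  intro N
  induction N with
  | zero =>
    intro t
    simp
  | succ n ih =>
    intro t
    rw [Fin.sum_univ_castSucc]
    have := ih (fun j => t j.castSucc)
    simp only [Fin.succ_castSucc]
    rw [this]
    simp only [Fin.castSucc_zero, Fin.succ_last]
    ring

end Crest.Agent.Lib.Tet
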