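import Crest.Agent.Lib.Tet.Sweep2

/-!
The interval estimates of a radial sweep; Riemann sums.
-/

set_option autoImplicit false

open MeasureTheory Set
open scoped ENNReal Topology

noncomputable section

namespace Crest.Agent.Lib.Tet

lemma upper_real {Rc Rb ν ϑ κ S Δ C₀ : ℝ} (hRc0 : 0 ≤ Rc) (hRc : Rc ≤ Rb) (hν : 0 ≤ ν)
    (hϑ0 : 0 ≤ ϑ) (hϑ1 : ϑ ≤ 1) (hκ : 0 ≤ κ) (hS : 1 ≤ S) (hΔ : 0 ≤ Δ)
    (hC : κ * (2 * ϑ * Rb ^ 2 + 3 * (2 * Rb * ν + ν ^ 2)) / 2 ≤ C₀) :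
    κ * (Rc ^ 2 / (2 * S)) * Δ ≤ (Rc + ν) ^ 2 * (Δ * (1 + 2 * ϑ)) * (κ / S) / 2 ∧
      (Rc + ν) ^ 2 * (Δ * (1 + 2 * ϑ)) * (κ / S) / 2 ≤ κ * (Rc ^ 2 / (2 * S)) * Δ + C₀ * Δ := by
  have hSpos : 0 < S := by linarith
  have hB0 : 0 ≤ (1 + 2 * ϑ) * (Rc + ν) ^ 2 - Rc ^ 2 := by
    have e : (1 + 2 * ϑ) * (Rc + ν) ^ 2 - Rc ^ 2 = 2 * ϑ * Rc ^ 2 + (1 + 2 * ϑ) * (2 * Rc * ν + ν ^ 2) := by
      ring
    rw [e]
    positivity
  have hB1 : (1 + 2 * ϑ) * (Rc + ν) ^ 2 - Rc ^ 2 ≤ 2 * ϑ * Rb ^ 2 + 3 * (2 * Rb * ν + ν ^ 2) := by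
    have e : (1 + 2 * ϑ) * (Rc + ν) ^ 2 - Rc ^ 2 = 2 * ϑ * Rc ^ 2 + (1 + 2 * ϑ) * (2 * Rc * ν + ν ^ 2) := by
      ring
    rw [e]
    have h1 : Rc ^ 2 ≤ Rb ^ 2 := pow_le_pow_left₀ hRc0 hRc 2
    have h2 : 2 * Rc * ν ≤ 2 * Rb * ν := by
      apply mul_le_mul_of_nonneg_right _ hν
      linarith
    have h3 : 2 * ϑ * Rc ^ 2 ≤ 2 * ϑ * Rb ^ 2 := mul_le_mul_of_nonneg_left h1 (by positivity)
    have h4 : (1 + 2 * ϑ) * (2 * Rc * ν + ν ^ 2) ≤ 3 * (2 * Rb * ν + ν ^ 2) := by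
      apply mul_le_mul (by linarith) (by linarith) (by positivity) (by norm_num)
    linarith
  have earea : (Rc + ν) ^ 2 * (Δ * (1 + 2 * ϑ)) * (κ / S) / 2 - κ * (Rc ^ 2 / (2 * S)) * Δ =
      (κ * Δ / 2) * (((1 + 2 * ϑ) * (Rc + ν) ^ 2 - Rc ^ 2) / S) := by
    field_simp
  have hpre : 0 ≤ κ * Δ / 2 := by positivity
  constructor
  · have : 0 ≤ (κ * Δ / 2) * (((1 + 2 * ϑ) * (Rc + ν) ^ 2 - Rc ^ 2) / S) := by positivity
    linarith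
  · have h1 : ((1 + 2 * ϑ) * (Rc + ν) ^ 2 - Rc ^ 2) / S ≤ 2 * ϑ * Rb ^ 2 + 3 * (2 * Rb * ν + ν ^ 2) := by
      rw [div_le_iff₀ hSpos]
      have hE : 0 ≤ 2 * ϑ * Rb ^ 2 + 3 * (2 * Rb * ν + ν ^ 2) := hB0.trans hB1
      nlinarith
    have h2 := mul_le_mul_of_nonneg_left h1 hpre
    have h3 : (κ * Δ / 2) * (2 * ϑ * Rb ^ 2 + 3 * (2 * Rb * ν + ν ^ 2)) =
        (κ * (2 * ϑ * Rb ^ 2 + 3 * (2 * Rb * ν + ν ^ 2)) / 2) * Δ := by ring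
    have h4 := mul_le_mul_of_nonneg_right hC hΔ
    linarith

lemma lower_real {Rc Rb ω κ S Δ C₀ r : ℝ} (hRc0 : 0 ≤ Rc) (hRc : Rc ≤ Rb) (hω : 0 ≤ ω) (hκ : 0 ≤ κ)
    (hS : 1 ≤ S) (hΔ : 0 ≤ Δ) (hr : Rc - ω ≤ r) (hr0 : 0 ≤ r) (hC : κ * Rb * ω ≤ C₀) :
    κ * (Rc ^ 2 / (2 * S)) * Δ ≤ r ^ 2 * Δ * (κ / S) / 2 + C₀ * Δ := by
  have hSpos : 0 < S := by linarith
  have hB : Rc ^ 2 - r ^ 2 ≤ 2 * Rb * ω := by
    have h1 : 2 * Rc * ω ≤ 2 * Rb * ω := by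
      apply mul_le_mul_of_nonneg_right _ hω
      linarith
    have h2 : Rc ^ 2 - r ^ 2 ≤ 2 * Rc * ω := by
      by_cases h : Rc - ω ≤ 0
      · have h3 : Rc ≤ ω := by linarith
        have h4 : Rc * Rc ≤ Rc * ω := mul_le_mul_of_nonneg_left h3 hRc0
        have h5 : 0 ≤ Rc * ω := mul_nonneg hRc0 hω
        nlinarith [sq_nonneg r]
      · have h3 := pow_le_pow_left₀ (not_le.1 h).le hr 2
        nlinarith [sq_nonneg ω]
    linarith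
  have e : κ * (Rc ^ 2 / (2 * S)) * Δ - r ^ 2 * Δ * (κ / S) / 2 =
      (κ * Δ / 2) * ((Rc ^ 2 - r ^ 2) / S) := by
    field_simp
  have hpre : 0 ≤ κ * Δ / 2 := by positivity
  have h1 : (Rc ^ 2 - r ^ 2) / S ≤ 2 * Rb * ω := by
    rw [div_le_iff₀ hSpos]
    have hRb : 0 ≤ Rb := hRc0.trans hRc
    have hE : 0 ≤ 2 * Rb * ω := by positivity
    nlinarith
  have h2 := mul_le_mul_of_nonneg_left h1 hpre
  have h3 : (κ * Δ / 2) * (2 * Rb * ω) = (κ * Rb * ω) * Δ := by ring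
  have h4 := mul_le_mul_of_nonneg_right hC hΔ
  linarith

/-- The hypotheses and constants of a sweep. -/
structure SweepSetup (e a b : E3) (L M δ ϑ ω K Rb C₀ α β : ℝ) (R : ℝ → ℝ) (w : ℝ → E3)
    (lam : ℝ → ℝ) : Prop where
  he : ‖e‖ = 1
  ha : inner ℝ a e = (0 : ℝ)
  hb : inner ℝ b e = (0 : ℝ)
  hg : 0 < gram a b
  hL : 0 < L
  hM0 : 0 ≤ M
  hR0 : ∀ t ∈ Icc α β, 0 ≤ R t
  hRb : ∀ t ∈ Icc α β, R t ≤ Rb
  hw : ∀ t ∈ Icc α β, inner ℝ (w t) e = (0 : ℝ)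
  hlam : ∀ t ∈ Icc α β, |lam t| ≤ M
  hw' : ∀ t ∈ Icc α β, HasDerivWithinAt w (lam t • (a + t • b)) (Icc α β) t
  hRω : ∀ x ∈ Icc α β, ∀ y ∈ Icc α β, |x - y| ≤ δ → |R x - R y| ≤ ω
  hϑ0 : 0 < ϑ
  hϑ1 : ϑ ≤ 1
  hω : 0 < ω
  hδ : 0 < δ
  hK : K = L * M * δ * (1 + 1 / ϑ)
  hC1 : Real.sqrt (gram a b) * (2 * ϑ * Rb ^ 2 +
    3 * (2 * Rb * (ω + L * M * δ + K) + (ω + L * M * δ + K) ^ 2)) / 2 ≤ C₀
  hC2 : Real.sqrt (gram a b) * Rb * ω ≤ C₀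

section
variable {e a b : E3} {L M δ ϑ ω K Rb C₀ α β : ℝ} {R : ℝ → ℝ} {w : ℝ → E3} {lam : ℝ → ℝ}

lemma SweepSetup.hD (h : SweepSetup e a b L M δ ϑ ω K Rb C₀ α β R w lam) {c : ℝ} (hc : c ∈ Icc α β) :
    e + w c ≠ 0 := by
  have hnorm : ‖e + w c‖ ^ 2 = 1 + ‖w c‖ ^ 2 := by
    rw [@norm_add_sq_real, h.he, real_inner_comm, h.hw c hc]
    ring
  intro h0
  rw [h0, norm_zero] at hnorm
  have h1 : (0 : ℝ) ≤ ‖w c‖ ^ 2 := by positivity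
  norm_num at hnorm
  linarith

lemma SweepSetup.gram_pos (h : SweepSetup e a b L M δ ϑ ω K Rb C₀ α β R w lam) {c : ℝ}
    (hc : c ∈ Icc α β) : 0 < gram (proj (e + w c) (a + c • b)) (proj (e + w c) b) := by
  rw [gram_sweep h.he h.ha h.hb (h.hw c hc) h.hg]
  have := h.hg
  positivity

lemma SweepSetup.sqrt_gram (h : SweepSetup e a b L M δ ϑ ω K Rb C₀ α β R w lam) {c : ℝ}
    (hc : c ∈ Icc α β) : Real.sqrt (gram (proj (e + w c) (a + c • b)) (proj (e + w c) b)) =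
      Real.sqrt (gram a b) / Real.sqrt (1 + ‖w c‖ ^ 2) := by
  rw [gram_sweep h.he h.ha h.hb (h.hw c hc) h.hg, Real.sqrt_div h.hg.le]

lemma SweepSetup.diff (h : SweepSetup e a b L M δ ϑ ω K Rb C₀ α β R w lam) {c τ : ℝ}
    (hc : c ∈ Icc α β) (hτ : τ ∈ Icc α β) :
    ∃ A' B' : ℝ, w τ = w c + A' • a + B' • b ∧ |A'| ≤ M * |τ - c| ∧
      |B' - c * A'| ≤ M * |τ - c| ^ 2 := by
  obtain ⟨h1, h2⟩ := direction_estimates h.hw' (dualA_a h.hg) (dualA_b h.hg) (dualB_a h.hg)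
    (dualB_b h.hg) h.hlam hc hτ
  refine ⟨_, _, ?_, h1, h2⟩
  have hτ' := span_of_perp h.he h.ha h.hb (h.hw τ hτ) h.hg
  have hc' := span_of_perp h.he h.ha h.hb (h.hw c hc) h.hg
  nth_rewrite 1 [hτ']
  nth_rewrite 1 [hc']
  module

/-- The covering property over one interval. -/
lemma SweepSetup.mem (h : SweepSetup e a b L M δ ϑ ω K Rb C₀ α β R w lam) (p₀ : E3) {c lo hi : ℝ}
    (hlo : lo ∈ Icc α β) (hhi : hi ∈ Icc α β) (hlh : lo < hi) (hΔ : hi - lo ≤ δ) (hc1 : lo ≤ c)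
    (hc2 : c ≤ hi) {τ ρ s : ℝ} (hτ : τ ∈ Icc lo hi) (hρ : ρ ∈ Icc 0 (R τ)) (hs : |s| ≤ L) :
    proj (e + w c) (p₀ + ρ • (a + τ • b) + s • (e + w τ)) ∈
      convexHull ℝ ({swP (e + w c) p₀ (a + c • b) K,
        swQ (e + w c) p₀ (a + c • b) b K (R c + ω + L * M * δ) ((hi - c) + ϑ * (hi - lo)),
        swQ (e + w c) p₀ (a + c • b) b K (R c + ω + L * M * δ) ((lo - c) - ϑ * (hi - lo))} :
        Set E3) := by
  have hsub : Icc lo hi ⊆ Icc α β := Icc_subset_Icc hlo.1 hhi.2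
  have hcI : c ∈ Icc α β := hsub ⟨hc1, hc2⟩
  have hτI : τ ∈ Icc α β := hsub hτ
  obtain ⟨A', B', hd, hA', hF⟩ := h.diff hcI hτI
  have hτc : |τ - c| ≤ δ := by
    refine le_trans ?_ hΔ
    rw [abs_le]; constructor <;> linarith [hτ.1, hτ.2]
  have hR : R τ ≤ R c + ω := by
    have := (abs_le.1 (h.hRω τ hτI c hcI hτc)).2
    linarith
  have hKnn : 0 ≤ K := by
    rw [h.hK]
    have h1 := h.hL.le
    have h2 := h.hM0
    have h3 := h.hδ.le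
    have h4 := h.hϑ0.le
    positivity
  have hLMδ : 0 ≤ L * M * δ := mul_nonneg (mul_nonneg h.hL.le h.hM0) h.hδ.le
  have hH : 0 < (R c + ω + L * M * δ) + K := by
    have := h.hR0 c hcI
    have := h.hω
    linarith
  exact local_mem h.hL.le h.hM0 h.hϑ0 h.hK hd hA' hF (h.hD hcI) hc1 hc2 hτ.1 hτ.2 hlh hΔ hρ.1 hρ.2
    hs hR hH

/-- The vertices are independent. -/
lemma SweepSetup.indep (h : SweepSetup e a b L M δ ϑ ω K Rb C₀ α β R w lam) (p₀ : E3) {c lo hi : ℝ}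
    (hlo : lo ∈ Icc α β) (hhi : hi ∈ Icc α β) (hlh : lo < hi) (hc1 : lo ≤ c) (hc2 : c ≤ hi) :
    AffineIndependent ℝ ![swP (e + w c) p₀ (a + c • b) K,
        swQ (e + w c) p₀ (a + c • b) b K (R c + ω + L * M * δ) ((hi - c) + ϑ * (hi - lo)),
        swQ (e + w c) p₀ (a + c • b) b K (R c + ω + L * M * δ) ((lo - c) - ϑ * (hi - lo))] := by
  have hsub : Icc lo hi ⊆ Icc α β := Icc_subset_Icc hlo.1 hhi.2
  have hcI : c ∈ Icc α β := hsub ⟨hc1, hc2⟩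
  have hKnn : 0 ≤ K := by
    rw [h.hK]
    have h1 := h.hL.le
    have h2 := h.hM0
    have h3 := h.hδ.le
    have h4 := h.hϑ0.le
    positivity
  have hLMδ : 0 ≤ L * M * δ := mul_nonneg (mul_nonneg h.hL.le h.hM0) h.hδ.le
  have hH : 0 < (R c + ω + L * M * δ) + K := by
    have := h.hR0 c hcI
    have := h.hω
    linarith
  apply affineIndependent_of_gram
  apply sw_gram_pos _ _ _ _ hH _ (h.gram_pos hcI)
  have : 0 < ϑ * (hi - lo) := mul_pos h.hϑ0 (by linarith)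
  linarith

/-- The area estimate over one interval. -/
lemma SweepSetup.area_bounds (h : SweepSetup e a b L M δ ϑ ω K Rb C₀ α β R w lam) (p₀ : E3)
    {c lo hi : ℝ} (hlo : lo ∈ Icc α β) (hhi : hi ∈ Icc α β) (hlh : lo < hi) (hc1 : lo ≤ c)
    (hc2 : c ≤ hi) :
    μHE[2] (convexHull ℝ ({swP (e + w c) p₀ (a + c • b) K,
        swQ (e + w c) p₀ (a + c • b) b K (R c + ω + L * M * δ) ((hi - c) + ϑ * (hi - lo)),
        swQ (e + w c) p₀ (a + c • b) b K (R c + ω + L * M * δ) ((lo - c) - ϑ * (hi - lo))} :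
        Set E3)) ≠ ⊤ ∧
    Real.sqrt (gram a b) * (R c ^ 2 / (2 * Real.sqrt (1 + ‖w c‖ ^ 2))) * (hi - lo) ≤
      (μHE[2] (convexHull ℝ ({swP (e + w c) p₀ (a + c • b) K,
        swQ (e + w c) p₀ (a + c • b) b K (R c + ω + L * M * δ) ((hi - c) + ϑ * (hi - lo)),
        swQ (e + w c) p₀ (a + c • b) b K (R c + ω + L * M * δ) ((lo - c) - ϑ * (hi - lo))} :
        Set E3))).toReal ∧
    (μHE[2] (convexHull ℝ ({swP (e + w c) p₀ (a + c • b) K,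
        swQ (e + w c) p₀ (a + c • b) b K (R c + ω + L * M * δ) ((hi - c) + ϑ * (hi - lo)),
        swQ (e + w c) p₀ (a + c • b) b K (R c + ω + L * M * δ) ((lo - c) - ϑ * (hi - lo))} :
        Set E3))).toReal ≤
      Real.sqrt (gram a b) * (R c ^ 2 / (2 * Real.sqrt (1 + ‖w c‖ ^ 2))) * (hi - lo) +
        C₀ * (hi - lo) := by
  have hsub : Icc lo hi ⊆ Icc α β := Icc_subset_Icc hlo.1 hhi.2
  have hcI : c ∈ Icc α β := hsub ⟨hc1, hc2⟩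
  have hKnn : 0 ≤ K := by
    rw [h.hK]
    have h1 := h.hL.le
    have h2 := h.hM0
    have h3 := h.hδ.le
    have h4 := h.hϑ0.le
    positivity
  have hLMδ : 0 ≤ L * M * δ := mul_nonneg (mul_nonneg h.hL.le h.hM0) h.hδ.le
  have hRc0 := h.hR0 c hcI
  have hω := h.hω
  have hH : 0 < (R c + ω + L * M * δ) + K := by linarith
  have hΔ0 : 0 < hi - lo := by linarith
  have hσ : (lo - c) - ϑ * (hi - lo) < (hi - c) + ϑ * (hi - lo) := by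
    have : 0 < ϑ * (hi - lo) := mul_pos h.hϑ0 hΔ0
    linarith
  rw [sw_area _ _ _ _ hH hσ (h.gram_pos hcI), h.sqrt_gram hcI]
  have e1 : R c + ω + L * M * δ + K = R c + (ω + L * M * δ + K) := by ring
  have e2 : (hi - c + ϑ * (hi - lo)) - (lo - c - ϑ * (hi - lo)) = (hi - lo) * (1 + 2 * ϑ) := by ring
  rw [e1, e2]
  have hS : 1 ≤ Real.sqrt (1 + ‖w c‖ ^ 2) := by
    rw [Real.one_le_sqrt]
    have : 0 ≤ ‖w c‖ ^ 2 := by positivity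
    linarith
  have hSpos : 0 < Real.sqrt (1 + ‖w c‖ ^ 2) := by linarith
  have hκ := Real.sqrt_nonneg (gram a b)
  have hν : 0 ≤ ω + L * M * δ + K := by linarith
  have hnn : 0 ≤ (R c + (ω + L * M * δ + K)) ^ 2 * ((hi - lo) * (1 + 2 * ϑ)) *
      (Real.sqrt (gram a b) / Real.sqrt (1 + ‖w c‖ ^ 2)) / 2 := by
    have := h.hϑ0
    positivity
  rw [ENNReal.toReal_ofReal hnn]
  obtain ⟨h1, h2⟩ := upper_real hRc0 (h.hRb c hcI) hν h.hϑ0.le h.hϑ1 hκ hS hΔ0.le h.hC1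
  exact ⟨ENNReal.ofReal_ne_top, h1, h2⟩

/-- The projected piece of the sweep over one interval. -/
lemma SweepSetup.piece_bounds (h : SweepSetup e a b L M δ ϑ ω K Rb C₀ α β R w lam) (p₀ : E3)
    {c lo hi : ℝ} (hlo : lo ∈ Icc α β) (hhi : hi ∈ Icc α β) (hlh : lo < hi) (hΔ : hi - lo ≤ δ)
    (hc1 : lo ≤ c) (hc2 : c ≤ hi) :
    |(μHE[2] ((fun y => y - (inner ℝ y (e + w c) / ‖e + w c‖ ^ 2) • (e + w c)) ''
        {x : E3 | ∃ τ ∈ Icc lo hi, ∃ ρ ∈ Icc 0 (R τ), ∃ s : ℝ, |s| ≤ L ∧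
          x = p₀ + ρ • (a + τ • b) + s • (e + w τ)})).toReal -
      Real.sqrt (gram a b) * (R c ^ 2 / (2 * Real.sqrt (1 + ‖w c‖ ^ 2))) * (hi - lo)| ≤
      C₀ * (hi - lo) := by
  have hsub : Icc lo hi ⊆ Icc α β := Icc_subset_Icc hlo.1 hhi.2
  have hcI : c ∈ Icc α β := hsub ⟨hc1, hc2⟩
  set P : Set E3 := (fun y => y - (inner ℝ y (e + w c) / ‖e + w c‖ ^ 2) • (e + w c)) ''
        {x : E3 | ∃ τ ∈ Icc lo hi, ∃ ρ ∈ Icc 0 (R τ), ∃ s : ℝ, |s| ≤ L ∧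
          x = p₀ + ρ • (a + τ • b) + s • (e + w τ)} with hP
  obtain ⟨hfin, -, hup⟩ := h.area_bounds p₀ hlo hhi hlh hc1 hc2
  -- the upper bound
  have hPsub : P ⊆ convexHull ℝ ({swP (e + w c) p₀ (a + c • b) K,
        swQ (e + w c) p₀ (a + c • b) b K (R c + ω + L * M * δ) ((hi - c) + ϑ * (hi - lo)),
        swQ (e + w c) p₀ (a + c • b) b K (R c + ω + L * M * δ) ((lo - c) - ϑ * (hi - lo))} :
        Set E3) := by
    rintro _ ⟨x, ⟨τ, hτ, ρ, hρ, s, hs, rfl⟩, rfl⟩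
    exact h.mem p₀ hlo hhi hlh hΔ hc1 hc2 hτ hρ hs
  have hPfin : μHE[2] P ≠ ⊤ := ne_top_of_le_ne_top hfin (measure_mono hPsub)
  have hPle := ENNReal.toReal_mono hfin (measure_mono hPsub)
  -- the lower bound
  set r : ℝ := max (R c - ω) 0 with hr
  have hr0 : 0 ≤ r := le_max_right _ _
  have hr1 : R c - ω ≤ r := le_max_left _ _
  have hRr : ∀ τ ∈ Icc lo hi, r ≤ R τ := by
    intro τ hτ
    apply max_le
    · have hτc : |τ - c| ≤ δ := by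
        refine le_trans ?_ hΔ
        rw [abs_le]; constructor <;> linarith [hτ.1, hτ.2]
      have := (abs_le.1 (h.hRω τ (hsub hτ) c hcI hτc)).1
      linarith
    · exact h.hR0 τ (hsub hτ)
  have hRc0 := h.hR0 c hcI
  have hκ := Real.sqrt_nonneg (gram a b)
  have hS : 1 ≤ Real.sqrt (1 + ‖w c‖ ^ 2) := by
    rw [Real.one_le_sqrt]
    have : 0 ≤ ‖w c‖ ^ 2 := by positivity
    linarith
  have hSpos : 0 < Real.sqrt (1 + ‖w c‖ ^ 2) := by linarith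
  have hΔ0 : 0 < hi - lo := by linarith
  have hlow := lower_real (Δ := hi - lo) hRc0 (h.hRb c hcI) h.hω.le hκ hS hΔ0.le hr1 hr0 h.hC2
  have hlow2 : r ^ 2 * (hi - lo) * (Real.sqrt (gram a b) / Real.sqrt (1 + ‖w c‖ ^ 2)) / 2 ≤
      (μHE[2] P).toReal := by
    rcases hr0.lt_or_eq with hrpos | hrzero
    · have hH : 0 < r + 0 := by linarith
      have hσ : lo - c < hi - c := by linarith
      have hsec := local_sector (e := e) (a := a) (b := b) (p₀ := p₀) (w := w) (R := R) (L := L)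
        h.hL.le hc1 hc2 hr0 hRr (e + w c)
      have harea := sw_area (e + w c) p₀ (a + c • b) b hH hσ (h.gram_pos hcI)
      have hmono := measure_mono (μ := (μHE[2] : Measure E3)) hsec
      rw [harea, h.sqrt_gram hcI] at hmono
      have h3 := (ENNReal.ofReal_le_iff_le_toReal hPfin).1 hmono
      refine le_trans (le_of_eq ?_) h3
      ring
    · rw [← hrzero]
      simp
  rw [abs_le]
  constructor
  · linarith
  · have h1 := le_trans hPle hup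
    linarith

end

end Crest.Agent.Lib.Tet
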