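import Crest.Agent.Lib.Tet.Sweep3

/-!
Riemann sums along partitions.
-/

set_option autoImplicit false

open MeasureTheory Set
open scoped ENNReal Topology

noncomputable section

namespace Crest.Agent.Lib.Tet

lemma exists_uc {f : ℝ → ℝ} {α β : ℝ} (hf : ContinuousOn f (Icc α β)) {ε : ℝ} (hε : 0 < ε) :
    ∃ δ > 0, ∀ x ∈ Icc α β, ∀ y ∈ Icc α β, |x - y| ≤ δ → |f x - f y| ≤ ε := by
  have huc := isCompact_Icc.uniformContinuousOn_of_continuous hf
  rw [Metric.uniformContinuousOn_iff] at huc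
  obtain ⟨δ, hδ, h⟩ := huc ε hε
  refine ⟨δ / 2, by positivity, fun x hx y hy hxy => ?_⟩
  have := h x hx y hy (by rw [Real.dist_eq]; linarith)
  rw [Real.dist_eq] at this
  exact this.le

/-- One interval of a Riemann sum. -/
lemma local_riemann {f : ℝ → ℝ} {lo hi c ε : ℝ} (hlh : lo ≤ hi)
    (hf : ContinuousOn f (Icc lo hi)) (hc : c ∈ Icc lo hi)
    (hb : ∀ x ∈ Icc lo hi, |f x - f c| ≤ ε) :
    |f c * (hi - lo) - ∫ τ in lo..hi, f τ| ≤ ε * (hi - lo) := by
  have hint : IntervalIntegrable f volume lo hi := hf.intervalIntegrable_of_Icc hlh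
  have hsub : (∫ τ in lo..hi, (f τ - f c)) = (∫ τ in lo..hi, f τ) - f c * (hi - lo) := by
    rw [intervalIntegral.integral_sub hint intervalIntegrable_const, intervalIntegral.integral_const,
      smul_eq_mul, mul_comm]
  have hnorm : ‖∫ τ in lo..hi, (f τ - f c)‖ ≤ ε * |hi - lo| := by
    apply intervalIntegral.norm_integral_le_of_norm_le_const
    intro x hx
    rw [uIoc_of_le hlh] at hx
    rw [Real.norm_eq_abs]
    exact hb x ⟨hx.1.le, hx.2⟩
  rw [abs_of_nonneg (sub_nonneg.2 hlh), hsub, Real.norm_eq_abs] at hnorm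
  rw [abs_sub_comm]
  exact hnorm

/-- A Riemann sum along a partition. -/
lemma riemann_bound {α β ε δ : ℝ} {f : ℝ → ℝ} (hf : ContinuousOn f (Icc α β))
    (hδ : ∀ x ∈ Icc α β, ∀ y ∈ Icc α β, |x - y| ≤ δ → |f x - f y| ≤ ε) {N : ℕ}
    (t : Fin (N + 1) → ℝ) (c : Fin N → ℝ) (hmono : StrictMono t) (h0 : t 0 = α)
    (h1 : t (Fin.last N) = β) (hmesh : ∀ i : Fin N, t i.succ - t i.castSucc ≤ δ)
    (htag : ∀ i : Fin N, t i.castSucc ≤ c i ∧ c i ≤ t i.succ) :
    |∑ i, f (c i) * (t i.succ - t i.castSucc) - ∫ τ in α..β, f τ| ≤ ε * (β - α) := by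
  have hIn : ∀ j, t j ∈ Icc α β := fun j =>
    ⟨h0 ▸ hmono.monotone (Fin.zero_le _), h1 ▸ hmono.monotone (Fin.le_last _)⟩
  have hαβ : α ≤ β := (hIn 0).1.trans (hIn 0).2
  have hmemI : ∀ x ∈ Icc α β, IntervalIntegrable f volume α x := fun x hx =>
    (hf.mono (Icc_subset_Icc le_rfl hx.2)).intervalIntegrable_of_Icc hx.1
  set Φ : ℝ → ℝ := fun x => ∫ τ in α..x, f τ with hΦ
  have hstep : ∀ i : Fin N, (∫ τ in (t i.castSucc)..(t i.succ), f τ) =
      Φ (t i.succ) - Φ (t i.castSucc) := by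
    intro i
    exact (intervalIntegral.integral_interval_sub_left (hmemI _ (hIn _)) (hmemI _ (hIn _))).symm
  have htotal : ∑ i : Fin N, (∫ τ in (t i.castSucc)..(t i.succ), f τ) = ∫ τ in α..β, f τ := by
    rw [Finset.sum_congr rfl (fun i _ => hstep i)]
    rw [fin_telescope N (fun j => Φ (t j))]
    simp only [h0, h1, hΦ, intervalIntegral.integral_same, sub_zero]
  have hlocal : ∀ i : Fin N, |f (c i) * (t i.succ - t i.castSucc) -
      ∫ τ in (t i.castSucc)..(t i.succ), f τ| ≤ ε * (t i.succ - t i.castSucc) := by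
    intro i
    have hlh : t i.castSucc ≤ t i.succ := (htag i).1.trans (htag i).2
    have hsub : Icc (t i.castSucc) (t i.succ) ⊆ Icc α β :=
      Icc_subset_Icc (hIn _).1 (hIn _).2
    apply local_riemann hlh (hf.mono hsub) ⟨(htag i).1, (htag i).2⟩
    intro x hx
    apply hδ x (hsub hx) (c i) (hsub ⟨(htag i).1, (htag i).2⟩)
    refine le_trans ?_ (hmesh i)
    rw [abs_le]
    constructor <;> linarith [hx.1, hx.2, (htag i).1, (htag i).2]
  rw [← htotal, ← Finset.sum_sub_distrib]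
  refine (Finset.abs_sum_le_sum_abs _ _).trans ?_
  refine (Finset.sum_le_sum fun i _ => hlocal i).trans (le_of_eq ?_)
  rw [← Finset.mul_sum, fin_telescope N t, h0, h1]

/-- The final summation. -/
lemma final_sum {N : ℕ} {x m Δ : Fin N → ℝ} {C₀ I η T : ℝ} (hΔ : ∑ i, Δ i = T)
    (hC : C₀ * T = η / 2) (hx : ∀ i, |x i - m i| ≤ C₀ * Δ i) (hm : |∑ i, m i - I| ≤ η / 4)
    (hη : 0 < η) : |∑ i, x i - I| ≤ η := by
  have h1 : |∑ i, (x i - m i)| ≤ η / 2 := by
    refine (Finset.abs_sum_le_sum_abs _ _).trans ?_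
    refine (Finset.sum_le_sum fun i _ => hx i).trans (le_of_eq ?_)
    rw [← Finset.mul_sum, hΔ, hC]
  rw [Finset.sum_sub_distrib] at h1
  have h2 := abs_le.1 h1
  have h3 := abs_le.1 hm
  rw [abs_le]
  constructor <;> linarith [h2.1, h2.2, h3.1, h3.2]

end Crest.Agent.Lib.Tet
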